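import Vale.Agent.P123.Defs
import Vale.Agent.P123.Main

open Polynomial
open scoped InnerProductSpace

namespace Vale.Agent.Results.P123.Crouzeix

open Vale.Agent.P123

universe u

theorem result :
    IsLeast {C : ℝ | ∀ (H : Type u) [NormedAddCommGroup H] [InnerProductSpace ℂ H] [CompleteSpace H]
      [Nontrivial H] (A : H →L[ℂ] H) (P : Polynomial ℂ),
        ‖Polynomial.aeval A P‖ ≤ C * sSup ((fun z => ‖P.eval z‖) '' numRange A)} 2 := by
  constructor
  · intro H _ _ _ _ A P
    apply bound A P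
    intro z hz
    refine le_csSup ?_ (Set.mem_image_of_mem (fun z => ‖P.eval z‖) hz)
    have hb := ((isCompact_closedBall (0 : ℂ) ‖A‖).image P.continuous.norm).bddAbove
    refine hb.mono (Set.image_mono fun w hw => ?_)
    rw [mem_closedBall_zero_iff]
    exact numRange_norm_le A w hw
  · intro C hC
    obtain ⟨A, h1, hb0⟩ := example_op.{u}
    have h := hC _ A X
    simp only [aeval_X, eval_X] at h
    have hne := (numRange_nonempty A).image (fun z : ℂ => ‖z‖)
    have hb : ∀ r ∈ (fun z : ℂ => ‖z‖) '' numRange A, r ≤ 1 / 2 := by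
      rintro _ ⟨z, hz, rfl⟩
      exact hb0 z hz
    have h2 : sSup ((fun z : ℂ => ‖z‖) '' numRange A) ≤ 1 / 2 := csSup_le hne hb
    have h3 : 0 ≤ sSup ((fun z : ℂ => ‖z‖) '' numRange A) := by
      obtain ⟨r, hr⟩ := hne
      refine le_trans ?_ (le_csSup ⟨_, hb⟩ hr)
      obtain ⟨z, -, rfl⟩ := hr
      exact norm_nonneg z
    by_contra hlt
    push Not at hlt
    set s := sSup ((fun z : ℂ => ‖z‖) '' numRange A)
    rcases h3.eq_or_lt with h0 | h0
    · rw [← h0] at h; linarith
    · nlinarith

end Vale.Agent.Results.P123.Crouzeix
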